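import Vale.Agent.P265.H936.LS
import Vale.Agent.P265.Flat.LDefs

/-!
# Forms, Hamiltonian flows and fixed points on regular level sets, in ambient terms
-/

open Set Manifold Module
open scoped ContDiff Topology
open Vale.Agent.P265.Loc

namespace Vale.Agent.P265.LS

namespace RegLevel

variable {E F V : Type*} [NormedAddCommGroup E] [NormedSpace ℝ E]
    [NormedAddCommGroup F] [NormedSpace ℝ F] [NormedAddCommGroup V] [NormedSpace ℝ V]
    [FiniteDimensional ℝ E] [FiniteDimensional ℝ F] [FiniteDimensional ℝ V]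
    (D : RegLevel E F V)

/-- The restriction to the level set of an ambient field of bilinear forms. -/
noncomputable def form (Ω : E → E →L[ℝ] E →L[ℝ] ℝ) : FormField V D.Carrier :=
  fun x v w => Ω (D.ι x) (D.dι x v) (D.dι x w)

theorem form_apply (Ω : E → E →L[ℝ] E →L[ℝ] ℝ) (x : D.Carrier) (v w : V) :
    D.form Ω x v w = Ω (D.ι x) (D.dι x v) (D.dι x w) := rfl

theorem mdifferentiableAt_par (p : D.Carrier) {y : V} (hy : ((0 : F), y) ∈ (D.Φh p).target) :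
    MDifferentiableAt 𝓘(ℝ, V) 𝓘(ℝ, V) (D.par p) y := by
  rw [D.mdifferentiableAt_iff]
  exact ((D.contDiffAt_ι_par p hy).differentiableAt (by simp)).mdifferentiableAt

theorem dι_mfderiv_par (p : D.Carrier) {y : V} (hy : ((0 : F), y) ∈ (D.Φh p).target) (v : V) :
    D.dι (D.par p y) (mfderiv 𝓘(ℝ, V) 𝓘(ℝ, V) (D.par p) y v) =
      fderiv ℝ (fun w => D.ι (D.par p w)) y v := by
  have h := D.dι_mfderiv (D.mdifferentiableAt_par p hy) v
  rw [mfderiv_eq_fderiv] at h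
  exact h

theorem pullback_form (Ω : E → E →L[ℝ] E →L[ℝ] ℝ) (p : D.Carrier) {y : V}
    (hy : ((0 : F), y) ∈ (D.Φh p).target) (v w : V) :
    pullback (D.form Ω) (D.par p) v w y =
      Ω (D.ι (D.par p y)) (fderiv ℝ (fun w => D.ι (D.par p w)) y v)
        (fderiv ℝ (fun w => D.ι (D.par p w)) y w) := by
  exact congrArg₂ (fun a b : E => Ω (D.ι (D.par p y)) a b) (D.dι_mfderiv_par p hy v)
    (D.dι_mfderiv_par p hy w)

theorem isOpen_target (p : D.Carrier) : IsOpen {v : V | ((0 : F), v) ∈ (D.Φh p).target} :=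
  (D.chart p).open_target

theorem isBilinearMap_form (Ω : E → E →L[ℝ] E →L[ℝ] ℝ) (x : D.Carrier) :
    IsBilinearMap ℝ (fun v w : V => Ω (D.ι x) (D.dι x v) (D.dι x w)) where
  add_left v v' w := by simp only [map_add, add_apply]
  smul_left c v w := by simp only [map_smul, smul_apply]
  add_right v w w' := by simp only [map_add]
  smul_right c v w := by simp only [map_smul]

/-- A closed ambient `2`-form which is nondegenerate on the tangent spaces of the level set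
restricts to a symplectic form. -/
theorem isSymplectic_form (Ω : E → E →L[ℝ] E →L[ℝ] ℝ)
    (hs : ∀ x, D.G x = 0 → ContDiffAt ℝ ∞ Ω x)
    (halt : ∀ x, D.G x = 0 → ∀ v, Ω x v v = 0)
    (hnd : ∀ x, D.G x = 0 → ∀ v, fderiv ℝ D.G x v = 0 →
      (∀ w, fderiv ℝ D.G x w = 0 → Ω x v w = 0) → v = 0)
    (hcl : ∀ x, D.G x = 0 → ∀ u v w, fderiv ℝ D.G x u = 0 → fderiv ℝ D.G x v = 0 →
      fderiv ℝ D.G x w = 0 →
      fderiv ℝ Ω x u v w + fderiv ℝ Ω x v w u + fderiv ℝ Ω x w u v = 0) :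
    IsSymplectic (D.form Ω) where
  bilin x := D.isBilinearMap_form Ω x
  alt x v := halt _ (D.G_ι x) _
  nondeg x v h := by
    have h1 : D.dι x v = 0 := by
      refine hnd _ (D.G_ι x) _ (D.fderiv_G_dι x v) ?_
      intro w hw
      obtain ⟨w', rfl⟩ := D.exists_dι_eq x hw
      exact h w'
    exact D.dι_injective x (h1.trans (map_zero _).symm)
  smooth p v w := by
    rw [D.extChartAt_symm_coe, D.extChartAt_target]
    have h1 : ContDiffOn ℝ ∞ (fun y => D.ι (D.par p y)) {v | ((0 : F), v) ∈ (D.Φh p).target} :=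
      D.contDiffOn_ι_par p
    have h2 := h1.fderiv_of_isOpen (D.isOpen_target p) (m := ∞) (by simp)
    have h3 : ContDiffOn ℝ ∞ (fun y => Ω (D.ι (D.par p y)))
        {v | ((0 : F), v) ∈ (D.Φh p).target} := by
      intro y hy
      exact ((hs _ (D.G_ι _)).comp y (D.contDiffAt_ι_par p hy)).contDiffWithinAt
    refine ContDiffOn.congr ((h3.clm_apply (h2.clm_apply (contDiffOn_const (c := v)))).clm_apply
      (h2.clm_apply (contDiffOn_const (c := w)))) ?_
    intro y hy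
    exact D.pullback_form Ω p hy v w
  closed p y hy u v w := by
    rw [D.extChartAt_target] at hy
    rw [D.extChartAt_symm_coe]
    set ψ : V → E := fun w => D.ι (D.par p w) with hψ
    have hψs : ContDiffAt ℝ ∞ ψ y := D.contDiffAt_ι_par p hy
    have hΩ : ContDiffAt ℝ ∞ Ω (ψ y) := hs _ (D.G_ι _)
    have hΩd : HasFDerivAt Ω (fderiv ℝ Ω (ψ y)) (ψ y) :=
      (hΩ.differentiableAt (by simp)).hasFDerivAt
    have hψd : HasFDerivAt ψ (fderiv ℝ ψ y) y := (hψs.differentiableAt (by simp)).hasFDerivAt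
    have hψ2 : HasFDerivAt (fderiv ℝ ψ) (fderiv ℝ (fderiv ℝ ψ) y) y :=
      ((hψs.fderiv_right (m := ∞) (by simp)).differentiableAt (by simp)).hasFDerivAt
    have hsymm : ∀ a b, fderiv ℝ (fderiv ℝ ψ) y a b = fderiv ℝ (fderiv ℝ ψ) y b a := by
      intro a b
      exact (hψs.isSymmSndFDerivAt (by
        rw [minSmoothness_of_isRCLikeNormedField]; norm_cast)).eq a b
    have hanti : ∀ a b, Ω (ψ y) a b = - Ω (ψ y) b a := by
      intro a b
      have h := halt (ψ y) (D.G_ι _) (a + b)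
      have ha := halt (ψ y) (D.G_ι _) a
      have hb := halt (ψ y) (D.G_ι _) b
      simp only [map_add, add_apply] at h
      linarith
    have key : ∀ a b c : V, fderiv ℝ (pullback (D.form Ω) (D.par p) b c) y a =
        fderiv ℝ Ω (ψ y) (fderiv ℝ ψ y a) (fderiv ℝ ψ y b) (fderiv ℝ ψ y c) +
        Ω (ψ y) (fderiv ℝ (fderiv ℝ ψ) y a b) (fderiv ℝ ψ y c) +
        Ω (ψ y) (fderiv ℝ ψ y b) (fderiv ℝ (fderiv ℝ ψ) y a c) := by
      intro a b c
      have e1 : pullback (D.form Ω) (D.par p) b c =ᶠ[𝓝 y]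
          fun y => Ω (ψ y) (fderiv ℝ ψ y b) (fderiv ℝ ψ y c) := by
        filter_upwards [(D.isOpen_target p).mem_nhds hy] with z hz
        exact D.pullback_form Ω p hz b c
      rw [e1.fderiv_eq]
      have d1 : HasFDerivAt (fun y => Ω (ψ y)) ((fderiv ℝ Ω (ψ y)).comp (fderiv ℝ ψ y)) y :=
        HasFDerivAt.comp (g := Ω) (f := ψ) y hΩd hψd
      have d2 : HasFDerivAt (fun y => fderiv ℝ ψ y b) ((fderiv ℝ (fderiv ℝ ψ) y).flip b) y :=
        by simpa using hψ2.clm_apply (hasFDerivAt_const b y)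
      have d3 : HasFDerivAt (fun y => fderiv ℝ ψ y c) ((fderiv ℝ (fderiv ℝ ψ) y).flip c) y :=
        by simpa using hψ2.clm_apply (hasFDerivAt_const c y)
      have d4 := (d1.clm_apply d2).clm_apply d3
      rw [d4.fderiv]
      simp only [add_apply, ContinuousLinearMap.comp_apply,
        ContinuousLinearMap.flip_apply]
      ring
    rw [key u v w, key v w u, key w u v]
    have hP : ∀ a, fderiv ℝ D.G (ψ y) (fderiv ℝ ψ y a) = 0 := by
      intro a
      have h := D.fderiv_G_dι (D.par p y) (mfderiv 𝓘(ℝ, V) 𝓘(ℝ, V) (D.par p) y a)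
      rwa [D.dι_mfderiv_par p hy] at h
    have h0 := hcl (ψ y) (D.G_ι _) _ _ _ (hP u) (hP v) (hP w)
    have h1 := hanti (fderiv ℝ (fderiv ℝ ψ) y u v) (fderiv ℝ ψ y w)
    have h2 := hanti (fderiv ℝ (fderiv ℝ ψ) y v w) (fderiv ℝ ψ y u)
    have h3 := hanti (fderiv ℝ (fderiv ℝ ψ) y w u) (fderiv ℝ ψ y v)
    rw [hsymm v u, hsymm w v, hsymm u w]
    linarith

/-- Functions of time and of the ambient point restrict to smooth functions on `ℝ × M`. -/
theorem contMDiff_time {W : Type*} [NormedAddCommGroup W] [NormedSpace ℝ W] (H : ℝ → E → W)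
    (hH : ∀ t x, D.G x = 0 → ContDiffAt ℝ ∞ (fun q : ℝ × E => H q.1 q.2) (t, x)) :
    ContMDiff (𝓘(ℝ, ℝ).prod 𝓘(ℝ, V)) 𝓘(ℝ, W) ∞ (fun z : ℝ × D.Carrier => H z.1 (D.ι z.2)) := by
  rintro ⟨t, x⟩
  have h1 : ContMDiffAt (𝓘(ℝ, ℝ).prod 𝓘(ℝ, V)) 𝓘(ℝ, ℝ × E) ∞
      (fun z : ℝ × D.Carrier => (z.1, D.ι z.2)) (t, x) := by
    refine ContMDiffAt.prodMk_space contMDiffAt_fst ?_
    exact (D.contMDiff_ι x).comp (t, x) contMDiffAt_snd
  exact ContMDiffAt.comp (t, x) (hH t (D.ι x) (D.G_ι x)).contMDiffAt h1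

/-- A Hamiltonian flow on the level set from ambient data. `Φ` is the ambient flow. -/
theorem isHamiltonianFlow_of_ambient (Ω : E → E →L[ℝ] E →L[ℝ] ℝ) (H : ℝ → E → ℝ)
    (Φ : ℝ → E → E) (φ : ℝ → D.Carrier → D.Carrier)
    (hφ : ∀ t x, D.ι (φ t x) = Φ t (D.ι x))
    (hH : ∀ t x, D.G x = 0 → ContDiffAt ℝ ∞ (fun q : ℝ × E => H q.1 q.2) (t, x))
    (hper : ∀ t x, D.G x = 0 → H (t + 1) x = H t x)
    (hΦ : ∀ t x, D.G x = 0 → ContDiffAt ℝ ∞ (fun q : ℝ × E => Φ q.1 q.2) (t, x))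
    (h0 : ∀ x, D.G x = 0 → Φ 0 x = x)
    (ham : ∀ t x, D.G x = 0 → ∀ w, fderiv ℝ D.G (Φ t x) w = 0 →
      Ω (Φ t x) (deriv (fun s => Φ s x) t) w = fderiv ℝ (H t) (Φ t x) w) :
    IsHamiltonianFlow (D.form Ω) (fun t x => H t (D.ι x)) φ where
  smooth' := D.contMDiff_time H hH
  periodic t x := hper t _ (D.G_ι x)
  smooth := by
    rw [D.contMDiff_iff le_rfl]
    have h := D.contMDiff_time Φ hΦ
    have h2 : (fun z : ℝ × D.Carrier => D.ι (φ z.1 z.2)) =
        fun z : ℝ × D.Carrier => Φ z.1 (D.ι z.2) := by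
      ext z
      exact hφ _ _
    rw [h2]
    exact h
  zero x := D.ext (by rw [hφ, h0 _ (D.G_ι x)])
  hamilton t x w := by
    have hd : HasDerivAt (fun s => D.ι (φ s x)) (deriv (fun s => Φ s (D.ι x)) t) t := by
      have h1 : (fun s => D.ι (φ s x)) = fun s => Φ s (D.ι x) := funext fun s => hφ s x
      rw [h1]
      have h2 : DifferentiableAt ℝ (fun q : ℝ × E => Φ q.1 q.2) (t, D.ι x) :=
        (hΦ t _ (D.G_ι x)).differentiableAt (by simp)
      have h3 : DifferentiableAt ℝ (fun s : ℝ => (s, D.ι x)) t := by fun_prop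
      exact (DifferentiableAt.comp (g := fun q : ℝ × E => Φ q.1 q.2)
        (f := fun s : ℝ => (s, D.ι x)) t h2 h3).hasDerivAt
    have hHd : DifferentiableAt ℝ (H t) (D.ι (φ t x)) := by
      have h2 : DifferentiableAt ℝ (fun q : ℝ × E => H q.1 q.2) (t, D.ι (φ t x)) :=
        (hH t _ (D.G_ι _)).differentiableAt (by simp)
      have h3 : DifferentiableAt ℝ (fun y : E => (t, y)) (D.ι (φ t x)) := by fun_prop
      exact DifferentiableAt.comp (g := fun q : ℝ × E => H q.1 q.2)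
        (f := fun y : E => (t, y)) _ h2 h3
    have e1 := D.dι_mfderiv_curve hd
    have e2 := D.mfderiv_comp_ι hHd w
    have e3 := ham t (D.ι x) (D.G_ι x) (D.dι (φ t x) w) (by
      rw [← hφ]; exact D.fderiv_G_dι _ _)
    rw [← hφ, ← e1] at e3
    exact e3.trans e2.symm

/-- Nondegeneracy of fixed points in ambient terms. -/
theorem nondegFixedPoints_of_ambient (Φ : E → E) (g : D.Carrier → D.Carrier)
    (hg : ∀ x, D.ι (g x) = Φ (D.ι x))
    (hΦ : ∀ x, D.G x = 0 → Φ x = x → DifferentiableAt ℝ Φ x)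
    (hnd : ∀ x, D.G x = 0 → Φ x = x → ∀ ξ, fderiv ℝ D.G x ξ = 0 → fderiv ℝ Φ x ξ = ξ → ξ = 0) :
    NondegFixedPoints V g := by
  intro x hx v hv
  have h1 : Φ (D.ι x) = D.ι x := by rw [← hg, hx]
  have h2 := D.dι_mfderiv_of_restrict D (hΦ _ (D.G_ι x) h1) hg v
  have h3 : D.dι (g x) (mfderiv 𝓘(ℝ, V) 𝓘(ℝ, V) g x v) = D.dι x v := by
    have h4 : D.dι (g x) = D.dι x := by rw [hx]
    rw [h4]
    exact congrArg (D.dι x) hv
  have h5 := hnd _ (D.G_ι x) h1 (D.dι x v) (D.fderiv_G_dι x v) (h2.symm.trans h3)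
  exact D.dι_injective x (h5.trans (map_zero _).symm)

omit [FiniteDimensional ℝ E] [FiniteDimensional ℝ F] [FiniteDimensional ℝ V] in
/-- Counting fixed points in ambient terms. -/
theorem encard_Fix0_le (Φ : E → E) (φ : ℝ → D.Carrier → D.Carrier)
    (hφ : ∀ x, D.ι (φ 1 x) = Φ (D.ι x)) :
    (Fix0 φ).encard ≤ {x | D.G x = 0 ∧ Φ x = x}.encard := by
  have h1 : D.ι '' (Fix0 φ) ⊆ {x | D.G x = 0 ∧ Φ x = x} := by
    rintro _ ⟨x, hx, rfl⟩
    exact ⟨D.G_ι x, by rw [← hφ, hx.1]⟩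
  calc (Fix0 φ).encard = (D.ι '' (Fix0 φ)).encard := (D.ι_injective.encard_image _).symm
    _ ≤ _ := encard_le_encard h1

omit [FiniteDimensional ℝ E] [FiniteDimensional ℝ F] [FiniteDimensional ℝ V] in
/-- Restriction to the level set of an ambient family of maps preserving it. -/
def restrict (Φ : ℝ → E → E) (h : ∀ t x, D.G x = 0 → D.G (Φ t x) = 0) (t : ℝ) (x : D.Carrier) :
    D.Carrier := D.pt (Φ t (D.ι x)) (h t _ (D.G_ι x))

omit [FiniteDimensional ℝ E] [FiniteDimensional ℝ F] [FiniteDimensional ℝ V] in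
theorem ι_restrict (Φ : ℝ → E → E) (h : ∀ t x, D.G x = 0 → D.G (Φ t x) = 0) (t : ℝ)
    (x : D.Carrier) : D.ι (D.restrict Φ h t x) = Φ t (D.ι x) := rfl

/-- Summary: a Hamiltonian flow with few, nondegenerate fixed points, from ambient data. -/
theorem exists_hamiltonianFlow (Ω : E → E →L[ℝ] E →L[ℝ] ℝ) (H : ℝ → E → ℝ) (Φ : ℝ → E → E)
    (hG : ∀ t x, D.G x = 0 → D.G (Φ t x) = 0)
    (hH : ∀ t x, D.G x = 0 → ContDiffAt ℝ ∞ (fun q : ℝ × E => H q.1 q.2) (t, x))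
    (hper : ∀ t x, D.G x = 0 → H (t + 1) x = H t x)
    (hΦ : ∀ t x, D.G x = 0 → ContDiffAt ℝ ∞ (fun q : ℝ × E => Φ q.1 q.2) (t, x))
    (h0 : ∀ x, D.G x = 0 → Φ 0 x = x)
    (ham : ∀ t x, D.G x = 0 → ∀ w, fderiv ℝ D.G (Φ t x) w = 0 →
      Ω (Φ t x) (deriv (fun s => Φ s x) t) w = fderiv ℝ (H t) (Φ t x) w)
    (hnd : ∀ x, D.G x = 0 → Φ 1 x = x → ∀ ξ, fderiv ℝ D.G x ξ = 0 → fderiv ℝ (Φ 1) x ξ = ξ →
      ξ = 0) :
    ∃ (H' : ℝ → D.Carrier → ℝ) (φ : ℝ → D.Carrier → D.Carrier),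
      IsHamiltonianFlow (D.form Ω) H' φ ∧ NondegFixedPoints V (φ 1) ∧
      (Fix0 φ).encard ≤ {x | D.G x = 0 ∧ Φ 1 x = x}.encard := by
  refine ⟨fun t x => H t (D.ι x), D.restrict Φ hG,
    D.isHamiltonianFlow_of_ambient Ω H Φ _ (fun _ _ => rfl) hH hper hΦ h0 ham,
    D.nondegFixedPoints_of_ambient (Φ 1) _ (fun _ => rfl) ?_ hnd,
    D.encard_Fix0_le (Φ 1) _ (fun _ => rfl)⟩
  intro x hx _
  have h2 : DifferentiableAt ℝ (fun q : ℝ × E => Φ q.1 q.2) (1, x) :=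
    (hΦ 1 x hx).differentiableAt (by simp)
  have h3 : DifferentiableAt ℝ (fun y : E => ((1 : ℝ), y)) x := by fun_prop
  exact DifferentiableAt.comp (g := fun q : ℝ × E => Φ q.1 q.2)
    (f := fun y : E => ((1 : ℝ), y)) _ h2 h3

end RegLevel

end Vale.Agent.P265.LS
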