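import Mathlib.Analysis.Calculus.InverseFunctionTheorem.ContDiff
import Mathlib.Geometry.Manifold.ContMDiffMFDeriv
import Mathlib.Geometry.Manifold.MFDeriv.Atlas
import Mathlib.Geometry.Manifold.MFDeriv.SpecificFunctions
import Mathlib.Analysis.Normed.Module.FiniteDimension
import Mathlib.Tactic

/-!
# Regular level sets are manifolds

`RegLevel E F V`: a smooth map `G : E → F` whose derivative is onto at all points of `G = 0`,
with `dim E = dim F + dim V`.  The level set `D.Carrier = {x // G x = 0}` is a smooth manifold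
modelled on `V`.
-/

open Set Manifold Module
open scoped ContDiff Topology

namespace Vale.Agent.P265.LS

/-- A regular level set `{G = 0}` in `E`, of dimension `dim V`. -/
structure RegLevel (E F V : Type*) [NormedAddCommGroup E] [NormedSpace ℝ E]
    [NormedAddCommGroup F] [NormedSpace ℝ F] [NormedAddCommGroup V] [NormedSpace ℝ V] where
  /-- the defining map -/
  G : E → F
  smooth : ContDiff ℝ ∞ G
  surj : ∀ x, G x = 0 → Function.Surjective (fderiv ℝ G x)
  dim : finrank ℝ E = finrank ℝ F + finrank ℝ V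

section Linear

variable {E F V : Type*} [NormedAddCommGroup E] [NormedSpace ℝ E]
    [NormedAddCommGroup F] [NormedSpace ℝ F] [NormedAddCommGroup V] [NormedSpace ℝ V]
    [FiniteDimensional ℝ E] [FiniteDimensional ℝ F] [FiniteDimensional ℝ V]

theorem exists_equiv_prod (A : E →L[ℝ] F) (hA : Function.Surjective A)
    (h : finrank ℝ E = finrank ℝ F + finrank ℝ V) :
    ∃ e : E ≃L[ℝ] F × V, ∀ x, (e x).1 = A x := by
  have hker : finrank ℝ (LinearMap.ker (A : E →ₗ[ℝ] F)) = finrank ℝ V := by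
    have h1 := LinearMap.finrank_range_add_finrank_ker (A : E →ₗ[ℝ] F)
    have h2 : LinearMap.range (A : E →ₗ[ℝ] F) = ⊤ := LinearMap.range_eq_top.2 hA
    rw [h2, finrank_top] at h1
    omega
  let φ := LinearEquiv.ofFinrankEq _ _ hker
  obtain ⟨q, hq⟩ := Submodule.exists_isCompl (LinearMap.ker (A : E →ₗ[ℝ] F))
  let π := Submodule.projectionOnto _ q hq
  let L : E →ₗ[ℝ] F × V := (A : E →ₗ[ℝ] F).prod (φ.toLinearMap.comp π)
  have hL : Function.Injective L := by
    rw [← LinearMap.ker_eq_bot, LinearMap.ker_eq_bot']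
    intro x hx
    have h1 : A x = 0 := congrArg Prod.fst hx
    have h2 : φ (π x) = 0 := congrArg Prod.snd hx
    have h3 : π x = 0 := by simpa using h2
    have h4 : x ∈ q := by
      rw [← Submodule.ker_projectionOnto hq]
      exact h3
    have h5 : x ∈ LinearMap.ker (A : E →ₗ[ℝ] F) := h1
    exact (Submodule.disjoint_def.1 hq.disjoint) x h5 h4
  have hdim : finrank ℝ E = finrank ℝ (F × V) := by
    rw [h, Module.finrank_prod]
  let e := (LinearMap.linearEquivOfInjective L hL hdim).toContinuousLinearEquiv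
  refine ⟨e, fun x => ?_⟩
  simp [e, L]

end Linear

namespace RegLevel

variable {E F V : Type*} [NormedAddCommGroup E] [NormedSpace ℝ E]
    [NormedAddCommGroup F] [NormedSpace ℝ F] [NormedAddCommGroup V] [NormedSpace ℝ V]

/-- The level set, as a type. -/
def Carrier (D : RegLevel E F V) : Type _ := {x : E // D.G x = 0}

variable (D : RegLevel E F V)

/-- The inclusion of the level set in the ambient space. -/
def ι (x : D.Carrier) : E := x.1

instance : MetricSpace D.Carrier := inferInstanceAs (MetricSpace {x : E // D.G x = 0})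

theorem G_ι (x : D.Carrier) : D.G (D.ι x) = 0 := x.2

theorem ι_injective : Function.Injective D.ι := Subtype.val_injective

@[ext] theorem ext {x y : D.Carrier} (h : D.ι x = D.ι y) : x = y := D.ι_injective h

theorem isEmbedding_ι : Topology.IsEmbedding D.ι := Topology.IsEmbedding.subtypeVal

theorem continuous_ι : Continuous D.ι := continuous_subtype_val

theorem dist_ι (x y : D.Carrier) : dist (D.ι x) (D.ι y) = dist x y := rfl

theorem range_ι : range D.ι = {x | D.G x = 0} := Subtype.range_coe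

theorem isClosedEmbedding_ι : Topology.IsClosedEmbedding D.ι :=
  ⟨D.isEmbedding_ι, by
    rw [D.range_ι]
    exact isClosed_eq D.smooth.continuous continuous_const⟩

/-- A point of the level set from a point of the ambient space. -/
def pt (x : E) (h : D.G x = 0) : D.Carrier := ⟨x, h⟩

@[simp] theorem ι_pt (x : E) (h : D.G x = 0) : D.ι (D.pt x h) = x := rfl

@[simp] theorem pt_ι (x : D.Carrier) (h : D.G (D.ι x) = 0) : D.pt (D.ι x) h = x := rfl

/-- A level set which is bounded in a finite dimensional space is compact. -/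
theorem compactSpace [FiniteDimensional ℝ E] {R : ℝ} (hR : ∀ x, D.G x = 0 → ‖x‖ ≤ R) :
    CompactSpace D.Carrier := by
  have : ProperSpace E := FiniteDimensional.proper ℝ E
  have hc : IsCompact {x | D.G x = 0} := by
    refine Metric.isCompact_of_isClosed_isBounded
      (isClosed_eq D.smooth.continuous continuous_const) ?_
    refine (Metric.isBounded_closedBall (x := (0 : E)) (r := R)).subset ?_
    intro x hx
    simpa using hR x hx
  exact isCompact_iff_compactSpace.1 hc

variable [FiniteDimensional ℝ E] [FiniteDimensional ℝ F] [FiniteDimensional ℝ V]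

/-- The adapted linear coordinates at a point of the level set. -/
noncomputable def lin (p : D.Carrier) : E ≃L[ℝ] F × V :=
  Classical.choose (exists_equiv_prod (V := V) (fderiv ℝ D.G (D.ι p)) (D.surj _ (D.G_ι p)) D.dim)

theorem lin_fst (p : D.Carrier) (x : E) : (D.lin p x).1 = fderiv ℝ D.G (D.ι p) x :=
  Classical.choose_spec
    (exists_equiv_prod (V := V) (fderiv ℝ D.G (D.ι p)) (D.surj _ (D.G_ι p)) D.dim) x

/-- The adapted coordinate map `x ↦ (G x, L x)`. -/
noncomputable def Φ (p : D.Carrier) (x : E) : F × V := (D.G x, (D.lin p x).2)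

theorem contDiff_Φ (p : D.Carrier) : ContDiff ℝ ∞ (D.Φ p) :=
  D.smooth.prodMk (contDiff_snd.comp (D.lin p).contDiff)

theorem hasFDerivAt_Φ_self (p : D.Carrier) :
    HasFDerivAt (D.Φ p) (D.lin p : E →L[ℝ] F × V) (D.ι p) := by
  have h1 : HasFDerivAt D.G (fderiv ℝ D.G (D.ι p)) (D.ι p) :=
    (D.smooth.differentiable (by simp) _).hasFDerivAt
  have h2 : HasFDerivAt (fun x => (D.lin p x).2)
      ((ContinuousLinearMap.snd ℝ F V).comp (D.lin p : E →L[ℝ] F × V)) (D.ι p) :=
    ((ContinuousLinearMap.snd ℝ F V).comp (D.lin p : E →L[ℝ] F × V)).hasFDerivAt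
  have h3 := h1.prodMk h2
  have h4 : (D.lin p : E →L[ℝ] F × V) = (fderiv ℝ D.G (D.ι p)).prod
      ((ContinuousLinearMap.snd ℝ F V).comp (D.lin p : E →L[ℝ] F × V)) := by
    ext x
    · exact D.lin_fst p x
    · rfl
  rw [h4]
  exact h3

/-- The points where the adapted coordinate map is a local diffeomorphism. -/
def Ω (p : D.Carrier) : Set E :=
  {x | fderiv ℝ (D.Φ p) x ∈ range ((↑) : (E ≃L[ℝ] F × V) → E →L[ℝ] F × V)}

theorem isOpen_Ω (p : D.Carrier) : IsOpen (D.Ω p) :=
  (ContinuousLinearEquiv.isOpen (𝕜 := ℝ) (E := E) (F := F × V)).preimage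
    ((D.contDiff_Φ p).continuous_fderiv (by simp))

/-- The adapted local diffeomorphism of the ambient space. -/
noncomputable def Φh (p : D.Carrier) : OpenPartialHomeomorph E (F × V) :=
  ((D.contDiff_Φ p).contDiffAt.toOpenPartialHomeomorph (D.Φ p)
    (D.hasFDerivAt_Φ_self p) (by simp)).restrOpen (D.Ω p) (D.isOpen_Ω p)

theorem Φh_coe (p : D.Carrier) : ⇑(D.Φh p) = D.Φ p := rfl

theorem mem_Φh_source (p : D.Carrier) : D.ι p ∈ (D.Φh p).source := by
  refine ⟨(D.contDiff_Φ p).contDiffAt.mem_toOpenPartialHomeomorph_source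
    (D.hasFDerivAt_Φ_self p) (by simp), ?_⟩
  exact ⟨D.lin p, (D.hasFDerivAt_Φ_self p).fderiv.symm⟩

theorem Φh_source_subset (p : D.Carrier) : (D.Φh p).source ⊆ D.Ω p := fun _ h => h.2

theorem contDiffAt_Φh_symm (p : D.Carrier) {y : F × V} (hy : y ∈ (D.Φh p).target) :
    ContDiffAt ℝ ∞ (D.Φh p).symm y := by
  obtain ⟨e, he⟩ := D.Φh_source_subset p ((D.Φh p).map_target hy)
  refine (D.Φh p).contDiffAt_symm hy (f₀' := e) ?_ (D.contDiff_Φ p).contDiffAt
  rw [he]
  exact ((D.contDiff_Φ p).differentiable (by simp) _).hasFDerivAt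

theorem G_Φh_symm (p : D.Carrier) {v : V} (hv : ((0 : F), v) ∈ (D.Φh p).target) :
    D.G ((D.Φh p).symm (0, v)) = 0 :=
  congrArg Prod.fst ((D.Φh p).right_inv hv)

open Classical in
/-- The inverse of the chart at `p`. -/
noncomputable def par (p : D.Carrier) (v : V) : D.Carrier :=
  if h : D.G ((D.Φh p).symm (0, v)) = 0 then D.pt _ h else p

theorem ι_par (p : D.Carrier) {v : V} (hv : ((0 : F), v) ∈ (D.Φh p).target) :
    D.ι (D.par p v) = (D.Φh p).symm (0, v) := by
  unfold par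
  rw [dif_pos (D.G_Φh_symm p hv)]
  rfl

/-- The chart of the level set at `p`. -/
noncomputable def chart (p : D.Carrier) : OpenPartialHomeomorph D.Carrier V where
  toFun x := (D.lin p (D.ι x)).2
  invFun := D.par p
  source := {x | D.ι x ∈ (D.Φh p).source}
  target := {v | ((0 : F), v) ∈ (D.Φh p).target}
  map_source' := by
    intro x hx
    have h := (D.Φh p).map_source hx
    rw [D.Φh_coe, Φ, D.G_ι] at h
    exact h
  map_target' := by
    intro v hv
    change D.ι (D.par p v) ∈ (D.Φh p).source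
    rw [D.ι_par p hv]
    exact (D.Φh p).map_target hv
  left_inv' := by
    intro x hx
    apply D.ext
    have h := (D.Φh p).map_source hx
    rw [D.Φh_coe, Φ, D.G_ι] at h
    rw [D.ι_par p h]
    have h2 := (D.Φh p).left_inv hx
    rwa [D.Φh_coe, Φ, D.G_ι] at h2
  right_inv' := by
    intro v hv
    rw [D.ι_par p hv]
    exact congrArg Prod.snd ((D.Φh p).right_inv hv)
  open_source := (D.Φh p).open_source.preimage D.continuous_ι
  open_target := (D.Φh p).open_target.preimage (continuous_const.prodMk continuous_id)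
  continuousOn_toFun := by
    refine Continuous.continuousOn ?_
    exact continuous_snd.comp ((D.lin p).continuous.comp D.continuous_ι)
  continuousOn_invFun := by
    rw [D.isEmbedding_ι.continuousOn_iff]
    have h1 : ContinuousOn (fun v : V => (D.Φh p).symm ((0 : F), v))
        {v | ((0 : F), v) ∈ (D.Φh p).target} :=
      (D.Φh p).continuousOn_symm.comp
        (continuous_const.prodMk continuous_id).continuousOn (fun v hv => hv)
    exact h1.congr (fun v hv => D.ι_par p hv)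

theorem chart_apply (p x : D.Carrier) : D.chart p x = (D.lin p (D.ι x)).2 := rfl

theorem chart_symm_apply (p : D.Carrier) (v : V) : (D.chart p).symm v = D.par p v := rfl

theorem mem_chart_source (p : D.Carrier) : p ∈ (D.chart p).source := D.mem_Φh_source p

noncomputable instance : ChartedSpace V D.Carrier where
  atlas := range D.chart
  chartAt := D.chart
  mem_chart_source := D.mem_chart_source
  chart_mem_atlas p := ⟨p, rfl⟩

theorem chartAt_eq (p : D.Carrier) : chartAt V p = D.chart p := rfl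

theorem extChartAt_coe (p : D.Carrier) :
    ⇑(extChartAt 𝓘(ℝ, V) p) = fun x => (D.lin p (D.ι x)).2 := by
  ext x
  simp [D.chartAt_eq, D.chart_apply]

theorem extChartAt_symm_coe (p : D.Carrier) :
    ⇑(extChartAt 𝓘(ℝ, V) p).symm = D.par p := by
  ext x
  simp [D.chartAt_eq, D.chart_symm_apply]

theorem extChartAt_target (p : D.Carrier) :
    (extChartAt 𝓘(ℝ, V) p).target = {v | ((0 : F), v) ∈ (D.Φh p).target} := by
  simp [D.chartAt_eq, chart]

/-- The local parametrisations, as maps to the ambient space, are smooth. -/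
theorem contDiffAt_ι_par (p : D.Carrier) {v : V} (hv : ((0 : F), v) ∈ (D.Φh p).target) :
    ContDiffAt ℝ ∞ (fun w => D.ι (D.par p w)) v := by
  have h1 : ContDiffAt ℝ ∞ (fun w : V => (D.Φh p).symm ((0 : F), w)) v :=
    (D.contDiffAt_Φh_symm p hv).comp v (contDiffAt_const.prodMk contDiffAt_id)
  refine h1.congr_of_eventuallyEq ?_
  have h2 : {w : V | ((0 : F), w) ∈ (D.Φh p).target} ∈ 𝓝 v :=
    (D.chart p).open_target.mem_nhds hv
  filter_upwards [h2] with w hw using D.ι_par p hw

theorem contDiffOn_ι_par (p : D.Carrier) :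
    ContDiffOn ℝ ∞ (fun w => D.ι (D.par p w)) {v | ((0 : F), v) ∈ (D.Φh p).target} :=
  fun _ hv => (D.contDiffAt_ι_par p hv).contDiffWithinAt

instance isManifold : IsManifold 𝓘(ℝ, V) ∞ D.Carrier := by
  apply isManifold_of_contDiffOn
  rintro e e' ⟨p, rfl⟩ ⟨q, rfl⟩
  have h : ContDiffOn ℝ ∞ (fun v => (D.lin q (D.ι (D.par p v))).2)
      {v | ((0 : F), v) ∈ (D.Φh p).target} :=
    (contDiff_snd.comp (D.lin q).contDiff).comp_contDiffOn (D.contDiffOn_ι_par p)
  refine ContDiffOn.congr (h.mono ?_) ?_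
  · intro v hv
    exact hv.1.1
  · intro v hv
    rfl

/-! ### Smooth maps to and from the level set -/

theorem contMDiff_ι : ContMDiff 𝓘(ℝ, V) 𝓘(ℝ, E) ∞ D.ι := by
  intro p
  rw [contMDiffAt_iff]
  refine ⟨D.continuous_ι.continuousAt, ?_⟩
  have h : ((0 : F), D.chart p p) ∈ (D.Φh p).target := (D.chart p).map_source (D.mem_chart_source p)
  have h1 := D.contDiffAt_ι_par p h
  rw [D.extChartAt_symm_coe, D.extChartAt_coe]
  exact h1.contDiffWithinAt

section Maps

variable {E' H' N : Type*} [NormedAddCommGroup E'] [NormedSpace ℝ E'] [TopologicalSpace H']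
  {I' : ModelWithCorners ℝ E' H'} [TopologicalSpace N] [ChartedSpace H' N]

theorem contMDiffWithinAt_iff {n : ℕ∞ω} (hn : n ≤ ∞) {f : N → D.Carrier} {s : Set N} {x : N} :
    ContMDiffWithinAt I' 𝓘(ℝ, V) n f s x ↔
      ContMDiffWithinAt I' 𝓘(ℝ, E) n (fun y => D.ι (f y)) s x := by
  constructor
  · intro h
    exact ((D.contMDiff_ι (f x)).of_le hn).comp_contMDiffWithinAt x h
  · intro h
    rw [_root_.contMDiffWithinAt_iff] at h ⊢
    obtain ⟨h1, h2⟩ := h
    refine ⟨D.isEmbedding_ι.continuousWithinAt_iff.2 h1, ?_⟩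
    rw [D.extChartAt_coe]
    have h3 : ContDiff ℝ n (fun y : E => (D.lin (f x) y).2) :=
      (contDiff_snd.comp (D.lin (f x)).contDiff).of_le le_top
    exact h3.contDiffAt.comp_contDiffWithinAt _ h2

theorem contMDiffAt_iff {n : ℕ∞ω} (hn : n ≤ ∞) {f : N → D.Carrier} {x : N} :
    ContMDiffAt I' 𝓘(ℝ, V) n f x ↔ ContMDiffAt I' 𝓘(ℝ, E) n (fun y => D.ι (f y)) x :=
  D.contMDiffWithinAt_iff hn

theorem contMDiffOn_iff {n : ℕ∞ω} (hn : n ≤ ∞) {f : N → D.Carrier} {s : Set N} :
    ContMDiffOn I' 𝓘(ℝ, V) n f s ↔ ContMDiffOn I' 𝓘(ℝ, E) n (fun y => D.ι (f y)) s :=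
  forall₂_congr fun _ _ => D.contMDiffWithinAt_iff hn

theorem contMDiff_iff {n : ℕ∞ω} (hn : n ≤ ∞) {f : N → D.Carrier} :
    ContMDiff I' 𝓘(ℝ, V) n f ↔ ContMDiff I' 𝓘(ℝ, E) n (fun y => D.ι (f y)) :=
  forall_congr' fun _ => D.contMDiffAt_iff hn

theorem mdifferentiableAt_ι (p : D.Carrier) : MDifferentiableAt 𝓘(ℝ, V) 𝓘(ℝ, E) D.ι p :=
  (D.contMDiff_ι p).mdifferentiableAt (by simp)

theorem mdifferentiableAt_iff {f : N → D.Carrier} {x : N} :
    MDifferentiableAt I' 𝓘(ℝ, V) f x ↔ MDifferentiableAt I' 𝓘(ℝ, E) (fun y => D.ι (f y)) x := by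
  constructor
  · intro h
    exact (D.mdifferentiableAt_ι (f x)).comp x h
  · intro h
    rw [_root_.mdifferentiableAt_iff] at h ⊢
    obtain ⟨h1, h2⟩ := h
    refine ⟨D.isEmbedding_ι.continuousAt_iff.2 h1, ?_⟩
    have h3 : Differentiable ℝ (fun y : E => (D.lin (f x) y).2) :=
      differentiable_snd.comp (D.lin (f x)).differentiable
    have h4 := (h3.differentiableAt).comp_differentiableWithinAt _ h2
    unfold writtenInExtChartAt
    rw [D.extChartAt_coe]
    exact h4

end Maps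

/-! ### The derivative of the inclusion -/

/-- The derivative of the inclusion: it embeds the tangent space at `x` in the ambient space. -/
noncomputable def dι (x : D.Carrier) : V →L[ℝ] E := mfderiv 𝓘(ℝ, V) 𝓘(ℝ, E) D.ι x

theorem dι_def (x : D.Carrier) : D.dι x = mfderiv 𝓘(ℝ, V) 𝓘(ℝ, E) D.ι x := rfl

theorem dι_eq (x : D.Carrier) :
    D.dι x = fderiv ℝ (fun w => D.ι (D.par x w)) ((D.lin x (D.ι x)).2) := by
  rw [dι_def, (D.mdifferentiableAt_ι x).mfderiv]
  simp only [writtenInExtChartAt, D.extChartAt_coe, D.extChartAt_symm_coe]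
  rw [ModelWithCorners.range_eq_univ, fderivWithin_univ]
  rfl

theorem hasFDerivAt_ι_par (x : D.Carrier) :
    HasFDerivAt (fun w => D.ι (D.par x w)) (D.dι x) ((D.lin x (D.ι x)).2) := by
  have h : ((0 : F), D.chart x x) ∈ (D.Φh x).target := (D.chart x).map_source (D.mem_chart_source x)
  rw [D.dι_eq]
  exact ((D.contDiffAt_ι_par x h).differentiableAt (by simp)).hasFDerivAt

theorem lin_dι_snd (x : D.Carrier) (v : V) : (D.lin x (D.dι x v)).2 = v := by
  have h : ((0 : F), D.chart x x) ∈ (D.Φh x).target := (D.chart x).map_source (D.mem_chart_source x)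
  have h1 : HasFDerivAt (fun w => (D.lin x (D.ι (D.par x w))).2)
      (((ContinuousLinearMap.snd ℝ F V).comp (D.lin x : E →L[ℝ] F × V)).comp (D.dι x))
      ((D.lin x (D.ι x)).2) :=
    ((ContinuousLinearMap.snd ℝ F V).comp (D.lin x : E →L[ℝ] F × V)).hasFDerivAt.comp _
      (D.hasFDerivAt_ι_par x)
  have h2 : (fun w => (D.lin x (D.ι (D.par x w))).2) =ᶠ[𝓝 ((D.lin x (D.ι x)).2)] id := by
    filter_upwards [(D.chart x).open_target.mem_nhds h] with w hw
    exact (D.chart x).right_inv hw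
  have h3 := (hasFDerivAt_id (𝕜 := ℝ) ((D.lin x (D.ι x)).2)).congr_of_eventuallyEq h2
  exact congrArg (fun A : V →L[ℝ] V => A v) (h1.unique h3)

theorem dι_injective (x : D.Carrier) : Function.Injective (D.dι x) := by
  intro v w h
  rw [← D.lin_dι_snd x v, ← D.lin_dι_snd x w, h]

theorem fderiv_G_dι (x : D.Carrier) (v : V) : fderiv ℝ D.G (D.ι x) (D.dι x v) = 0 := by
  have h : ((0 : F), D.chart x x) ∈ (D.Φh x).target := (D.chart x).map_source (D.mem_chart_source x)
  have h0 : D.ι (D.par x ((D.lin x (D.ι x)).2)) = D.ι x :=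
    congrArg D.ι ((D.chart x).left_inv (D.mem_chart_source x))
  have hG : HasFDerivAt D.G (fderiv ℝ D.G (D.ι x)) (D.ι (D.par x ((D.lin x (D.ι x)).2))) := by
    rw [h0]
    exact (D.smooth.differentiable (by simp) _).hasFDerivAt
  have h1 := HasFDerivAt.comp (f := fun w => D.ι (D.par x w)) _ hG (D.hasFDerivAt_ι_par x)
  have h2 : (D.G ∘ fun w => D.ι (D.par x w)) = fun _ => 0 := by
    ext w
    exact D.G_ι _
  rw [h2] at h1
  exact congrArg (fun A : V →L[ℝ] F => A v) (h1.unique (hasFDerivAt_const (0 : F) _))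

theorem exists_dι_eq (x : D.Carrier) {w : E} (hw : fderiv ℝ D.G (D.ι x) w = 0) :
    ∃ v, D.dι x v = w := by
  refine ⟨(D.lin x w).2, (D.lin x).injective ?_⟩
  ext
  · rw [D.lin_fst, D.lin_fst, hw, D.fderiv_G_dι]
  · exact D.lin_dι_snd x _

theorem mem_range_dι_iff (x : D.Carrier) {w : E} :
    w ∈ range (D.dι x) ↔ fderiv ℝ D.G (D.ι x) w = 0 := by
  constructor
  · rintro ⟨v, rfl⟩
    exact D.fderiv_G_dι x v
  · exact D.exists_dι_eq x

section Maps

variable {E' H' N : Type*} [NormedAddCommGroup E'] [NormedSpace ℝ E'] [TopologicalSpace H']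
  {I' : ModelWithCorners ℝ E' H'} [TopologicalSpace N] [ChartedSpace H' N]

/-- Chain rule for maps to the level set. -/
theorem dι_mfderiv {f : N → D.Carrier} {x : N} (hf : MDifferentiableAt I' 𝓘(ℝ, V) f x) (v : E') :
    D.dι (f x) (mfderiv I' 𝓘(ℝ, V) f x v) = mfderiv I' 𝓘(ℝ, E) (fun y => D.ι (f y)) x v := by
  have h := mfderiv_comp x (D.mdifferentiableAt_ι (f x)) hf
  have h2 := congrArg (fun A : TangentSpace I' x →L[ℝ] TangentSpace 𝓘(ℝ, E) (D.ι (f x)) => A v) h
  exact h2.symm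

/-- Restrictions of smooth maps of the ambient space. -/
theorem contMDiff_comp_ι {W : Type*} [NormedAddCommGroup W] [NormedSpace ℝ W] {h : E → W}
    {n : ℕ∞ω} (hn : n ≤ ∞) (hh : ContDiff ℝ n h) :
    ContMDiff 𝓘(ℝ, V) 𝓘(ℝ, W) n (fun x => h (D.ι x)) :=
  hh.contMDiff.comp (D.contMDiff_ι.of_le hn)

theorem mfderiv_comp_ι {W : Type*} [NormedAddCommGroup W] [NormedSpace ℝ W] {h : E → W}
    {x : D.Carrier} (hh : DifferentiableAt ℝ h (D.ι x)) (v : V) :
    mfderiv 𝓘(ℝ, V) 𝓘(ℝ, W) (fun y => h (D.ι y)) x v = fderiv ℝ h (D.ι x) (D.dι x v) := by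
  have h1 := mfderiv_comp x hh.mdifferentiableAt (D.mdifferentiableAt_ι x)
  have h2 := congrArg (fun A : TangentSpace 𝓘(ℝ, V) x →L[ℝ] TangentSpace 𝓘(ℝ, W) (h (D.ι x)) =>
    A v) h1
  rw [mfderiv_eq_fderiv] at h2
  exact h2

/-- Chain rule for a map `g` of the level set which is the restriction of an ambient map `Φ`. -/
theorem dι_mfderiv_of_restrict {E₂ F₂ V₂ : Type*} [NormedAddCommGroup E₂] [NormedSpace ℝ E₂]
    [NormedAddCommGroup F₂] [NormedSpace ℝ F₂] [NormedAddCommGroup V₂] [NormedSpace ℝ V₂]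
    [FiniteDimensional ℝ E₂] [FiniteDimensional ℝ F₂] [FiniteDimensional ℝ V₂]
    (D₂ : RegLevel E₂ F₂ V₂) {g : D.Carrier → D₂.Carrier} {Φ : E → E₂} {x : D.Carrier}
    (hΦ : DifferentiableAt ℝ Φ (D.ι x)) (hg : ∀ y, D₂.ι (g y) = Φ (D.ι y)) (v : V) :
    D₂.dι (g x) (mfderiv 𝓘(ℝ, V) 𝓘(ℝ, V₂) g x v) = fderiv ℝ Φ (D.ι x) (D.dι x v) := by
  have h0 : (fun y => D₂.ι (g y)) = fun y => Φ (D.ι y) := funext hg
  have hgd : MDifferentiableAt 𝓘(ℝ, V) 𝓘(ℝ, V₂) g x := by
    rw [D₂.mdifferentiableAt_iff, h0]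
    exact hΦ.mdifferentiableAt.comp x (D.mdifferentiableAt_ι x)
  have h1 := congrArg (fun f : D.Carrier → E₂ =>
    (mfderiv 𝓘(ℝ, V) 𝓘(ℝ, E₂) f x : V →L[ℝ] E₂) v) h0
  exact (D₂.dι_mfderiv hgd v).trans (h1.trans (D.mfderiv_comp_ι hΦ v))

/-- The velocity of a curve in the level set. -/
theorem dι_mfderiv_curve {γ : ℝ → D.Carrier} {t : ℝ} {w : E}
    (h : HasDerivAt (fun s => D.ι (γ s)) w t) :
    D.dι (γ t) (mfderiv 𝓘(ℝ, ℝ) 𝓘(ℝ, V) γ t (1 : ℝ)) = w := by
  have hd : MDifferentiableAt 𝓘(ℝ, ℝ) 𝓘(ℝ, V) γ t := by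
    rw [D.mdifferentiableAt_iff]
    exact h.differentiableAt.mdifferentiableAt
  rw [D.dι_mfderiv hd, mfderiv_eq_fderiv]
  exact h.deriv

end Maps

end RegLevel

end Vale.Agent.P265.LS
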