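import Vale.Agent.P265.H336.Iface
import Vale.Agent.P265.H690.Infinity
import Vale.Agent.P265.H933.Wall

/-!
# P265, block S6b: the descent near infinity

In the compact box `N × {‖u‖ ≤ a, ‖v‖ ≤ b}` of a function which is quadratic at infinity, each point
outside the central part and above the bottom has a descent: stretch `u` up to the wall, contract
`v`.
-/

open Set Topology Manifold
open Vale.Agent.P265.AS
open Vale.Agent.P265.H933 (clip abs_clip clip_of_abs_le sq_le_clip sq_lt_clip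
  clip_eq_self_of_abs_eq continuous_clip stretch continuous_stretch)

namespace Vale.Agent.P265.H936

open Vale.Agent.P265.H690 (q0 IsBox)

section Stretch

variable {p q : ℕ} {a β : ℝ}

theorem stretch_fst (w : (Fin p → ℝ) × (Fin q → ℝ)) (j : Fin p) :
    (stretch a β w).1 j = clip a ((1 + β) * w.1 j) := rfl

theorem stretch_snd (w : (Fin p → ℝ) × (Fin q → ℝ)) (j : Fin q) :
    (stretch a β w).2 j = (1 - β) * w.2 j := rfl

theorem norm_stretch_fst_le (ha : 0 ≤ a) (w : (Fin p → ℝ) × (Fin q → ℝ)) :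
    ‖(stretch a β w).1‖ ≤ a := by
  rw [pi_norm_le_iff_of_nonneg ha]
  intro j
  rw [stretch_fst, Real.norm_eq_abs, abs_clip ha]
  exact min_le_left _ _

theorem norm_stretch_snd (h1 : β ≤ 1) (w : (Fin p → ℝ) × (Fin q → ℝ)) :
    ‖(stretch a β w).2‖ = (1 - β) * ‖w.2‖ := by
  have h : (stretch a β w).2 = (1 - β) • w.2 := rfl
  rw [h, norm_smul, Real.norm_eq_abs, abs_of_nonneg (by linarith)]

theorem abs_le_of_norm_fst_le {w : (Fin p → ℝ) × (Fin q → ℝ)} (hw : ‖w.1‖ ≤ a) (j : Fin p) :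
    |w.1 j| ≤ a := (norm_le_pi_norm w.1 j).trans hw

theorem norm_fst_le_stretch (h0 : 0 ≤ β) {w : (Fin p → ℝ) × (Fin q → ℝ)} (hw : ‖w.1‖ ≤ a) :
    ‖w.1‖ ≤ ‖(stretch a β w).1‖ := by
  rw [pi_norm_le_iff_of_nonneg (norm_nonneg _)]
  intro j
  refine le_trans ?_ (norm_le_pi_norm (stretch a β w).1 j)
  rw [Real.norm_eq_abs, Real.norm_eq_abs, ← sq_le_sq]
  exact sq_le_clip (abs_le_of_norm_fst_le hw j) h0

theorem le_norm_stretch (h0 : 0 ≤ β) (h1 : β ≤ 1) {w : (Fin p → ℝ) × (Fin q → ℝ)}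
    (hw : ‖w.1‖ ≤ a) : (1 - β) * ‖w‖ ≤ ‖stretch a β w‖ := by
  rcases le_total ‖w.1‖ ‖w.2‖ with h | h
  · have e : ‖w‖ = ‖w.2‖ := by rw [Prod.norm_def, max_eq_right h]
    rw [e, ← norm_stretch_snd (a := a) h1]
    exact norm_snd_le _
  · have e : ‖w‖ = ‖w.1‖ := by rw [Prod.norm_def, max_eq_left h]
    rw [e]
    calc (1 - β) * ‖w.1‖ ≤ ‖w.1‖ := by nlinarith [norm_nonneg w.1]
      _ ≤ ‖(stretch a β w).1‖ := norm_fst_le_stretch h0 hw
      _ ≤ _ := norm_fst_le _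

theorem stretch_zero {w : (Fin p → ℝ) × (Fin q → ℝ)} (hw : ‖w.1‖ ≤ a) : stretch a 0 w = w := by
  refine Prod.ext (funext fun j => ?_) (funext fun j => ?_)
  · rw [stretch_fst, add_zero, one_mul, clip_of_abs_le (abs_le_of_norm_fst_le hw j)]
  · rw [stretch_snd]; ring

theorem q0_stretch_le (h0 : 0 ≤ β) (h1 : β ≤ 1) {w : (Fin p → ℝ) × (Fin q → ℝ)}
    (hw : ‖w.1‖ ≤ a) : q0 (stretch a β w) ≤ q0 w := by
  unfold q0
  refine add_le_add (neg_le_neg ?_) ?_
  · exact Finset.sum_le_sum (fun j _ => sq_le_clip (abs_le_of_norm_fst_le hw j) h0)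
  · refine Finset.sum_le_sum (fun j _ => ?_)
    rw [stretch_snd, mul_pow]
    have : (1 - β) ^ 2 ≤ 1 := by nlinarith
    nlinarith [sq_nonneg (w.2 j)]

theorem q0_stretch_lt (h0 : 0 < β) (h1 : β ≤ 1) {w : (Fin p → ℝ) × (Fin q → ℝ)}
    (hw : ‖w.1‖ ≤ a) (h : (∃ j, w.1 j ≠ 0 ∧ |w.1 j| < a) ∨ ∃ j, w.2 j ≠ 0) :
    q0 (stretch a β w) < q0 w := by
  have e1 : ∀ j ∈ Finset.univ, w.1 j ^ 2 ≤ (stretch a β w).1 j ^ 2 :=
    fun j _ => sq_le_clip (abs_le_of_norm_fst_le hw j) h0.le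
  have e2 : ∀ j ∈ Finset.univ, (stretch a β w).2 j ^ 2 ≤ w.2 j ^ 2 := by
    intro j _
    rw [stretch_snd, mul_pow]
    have : (1 - β) ^ 2 ≤ 1 := by nlinarith
    nlinarith [sq_nonneg (w.2 j)]
  unfold q0
  rcases h with ⟨j, hj0, hj⟩ | ⟨j, hj⟩
  · refine add_lt_add_of_lt_of_le (neg_lt_neg ?_) (Finset.sum_le_sum e2)
    exact Finset.sum_lt_sum e1 ⟨j, Finset.mem_univ _, sq_lt_clip hj hj0 h0⟩
  · refine add_lt_add_of_le_of_lt (neg_le_neg (Finset.sum_le_sum e1)) ?_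
    refine Finset.sum_lt_sum e2 ⟨j, Finset.mem_univ _, ?_⟩
    rw [stretch_snd, mul_pow]
    have h3 : (1 - β) ^ 2 < 1 := by nlinarith
    have h4 : 0 < w.2 j ^ 2 := by positivity
    nlinarith

theorem stretch_eq_self (h0 : 0 ≤ β) {w : (Fin p → ℝ) × (Fin q → ℝ)} (hw : ‖w.1‖ ≤ a)
    (h : ¬ ((∃ j, w.1 j ≠ 0 ∧ |w.1 j| < a) ∨ ∃ j, w.2 j ≠ 0)) : stretch a β w = w := by
  push Not at h
  obtain ⟨h1, h2⟩ := h
  have ha : 0 ≤ a := (norm_nonneg _).trans hw
  refine Prod.ext (funext fun j => ?_) (funext fun j => ?_)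
  · rw [stretch_fst]
    by_cases hz : w.1 j = 0
    · rw [hz, mul_zero, clip_of_abs_le (by simpa using ha)]
    · exact clip_eq_self_of_abs_eq (le_antisymm (abs_le_of_norm_fst_le hw j) (h1 j hz)) h0
  · rw [stretch_snd, h2 j]; ring

end Stretch

section Cut

variable {p q : ℕ} {R₁ R' : ℝ}

/-- The strength of the wall move at `w`. -/
noncomputable def wcut (R₁ R' : ℝ) (w : (Fin p → ℝ) × (Fin q → ℝ)) : ℝ :=
  min (1 - R₁ / R') (max 0 (‖w‖ - R'))

theorem continuous_wcut : Continuous (wcut R₁ R' : (Fin p → ℝ) × (Fin q → ℝ) → ℝ) := by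
  unfold wcut; fun_prop

theorem wcut_nonneg (h1 : 0 < R₁) (h2 : R₁ < R') (w : (Fin p → ℝ) × (Fin q → ℝ)) :
    0 ≤ wcut R₁ R' w := by
  have h3 : R₁ / R' < 1 := (div_lt_one (h1.trans h2)).2 h2
  exact le_min (by linarith) (le_max_left _ _)

theorem wcut_le (w : (Fin p → ℝ) × (Fin q → ℝ)) : wcut R₁ R' w ≤ 1 - R₁ / R' := min_le_left _ _

theorem wcut_le_one (h1 : 0 < R₁) (h2 : R₁ < R') (w : (Fin p → ℝ) × (Fin q → ℝ)) :
    wcut R₁ R' w ≤ 1 := by
  have h3 : 0 < R₁ / R' := div_pos h1 (h1.trans h2)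
  exact (wcut_le w).trans (by linarith)

theorem wcut_eq_zero (h1 : 0 < R₁) (h2 : R₁ < R') {w : (Fin p → ℝ) × (Fin q → ℝ)}
    (h : ‖w‖ ≤ R') : wcut R₁ R' w = 0 := by
  have h3 : R₁ / R' < 1 := (div_lt_one (h1.trans h2)).2 h2
  unfold wcut
  rw [max_eq_left (by linarith), min_eq_right (by linarith)]

theorem wcut_pos (h1 : 0 < R₁) (h2 : R₁ < R') {w : (Fin p → ℝ) × (Fin q → ℝ)}
    (h : R' < ‖w‖) : 0 < wcut R₁ R' w := by
  have h3 : R₁ / R' < 1 := (div_lt_one (h1.trans h2)).2 h2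
  unfold wcut
  exact lt_min (by linarith) (lt_max_of_lt_right (by linarith))

theorem norm_stretch_gt {a s : ℝ} (h1 : 0 < R₁) (h2 : R₁ < R') (hs : s ∈ Icc (0 : ℝ) 1)
    {w : (Fin p → ℝ) × (Fin q → ℝ)} (hw : ‖w.1‖ ≤ a) (h : R' < ‖w‖) :
    R₁ < ‖stretch a (s * wcut R₁ R' w) w‖ := by
  have h3 := wcut_nonneg h1 h2 w
  have h4 := wcut_le (R₁ := R₁) (R' := R') w
  have h5 := wcut_le_one h1 h2 w
  have h6 : 0 ≤ s * wcut R₁ R' w := mul_nonneg hs.1 h3
  have h7 : s * wcut R₁ R' w ≤ wcut R₁ R' w := by nlinarith [hs.2]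
  refine lt_of_lt_of_le ?_ (le_norm_stretch h6 (h7.trans h5) hw)
  have h8 : R₁ / R' ≤ 1 - s * wcut R₁ R' w := by linarith
  have h9 : 0 < R' := h1.trans h2
  have h10 : 0 < R₁ / R' := div_pos h1 h9
  calc R₁ = R₁ / R' * R' := by field_simp
    _ < R₁ / R' * ‖w‖ := mul_lt_mul_of_pos_left h h10
    _ ≤ _ := mul_le_mul_of_nonneg_right h8 (norm_nonneg _)

end Cut

section Wall

variable {V : Type*} [NormedAddCommGroup V] [NormedSpace ℝ V]
  {M : Type*} [TopologicalSpace M] [ChartedSpace V M]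
  {Z : Type} [NormedAddCommGroup Z] [NormedSpace ℝ Z]
  {N : Type} [TopologicalSpace N]
  {F : M × Z → ℝ} {p q : ℕ} {T : Z ≃L[ℝ] (Fin p → ℝ) × (Fin q → ℝ)}
  {R₁ a' a b lo hi : ℝ}

/-- The wall move on `N × Z`. -/
noncomputable def wall (T : Z ≃L[ℝ] (Fin p → ℝ) × (Fin q → ℝ)) (a R₁ R' : ℝ) (s : ℝ) (x : N × Z) :
    N × Z :=
  (x.1, T.symm (stretch a (s * wcut R₁ R' (T x.2)) (T x.2)))

omit [TopologicalSpace N] in
theorem T_wall (R' : ℝ) (s : ℝ) (x : N × Z) :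
    T (wall T a R₁ R' s x).2 = stretch a (s * wcut R₁ R' (T x.2)) (T x.2) := by
  rw [wall, ContinuousLinearEquiv.apply_symm_apply]

omit [TopologicalSpace N] in
theorem wall_eq_self {R' s : ℝ} {x : N × Z}
    (h : stretch a (s * wcut R₁ R' (T x.2)) (T x.2) = T x.2) : wall T a R₁ R' s x = x := by
  rw [wall, h, ContinuousLinearEquiv.symm_apply_apply]

/-- The wall move is a descent. -/
theorem descent_wall (hB : IsBox (V := V) F T R₁ a' a b lo hi) {R' : ℝ} (hR : R₁ < R')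
    (g : N → N) (π : N → M) :
    Descent (Prod.map g id) (univ ×ˢ {z | ‖(T z).1‖ ≤ a ∧ ‖(T z).2‖ ≤ b})
      (fun x => F (π x.1, x.2)) (wall T a R₁ R') := by
  have h1 := hB.R₁_pos
  have ha : 0 ≤ a := by linarith [hB.R₁_lt_a', hB.a'_lt]
  have key : ∀ s ∈ Icc (0 : ℝ) 1, ∀ x : N × Z, ‖(T x.2).1‖ ≤ a →
      wall T a R₁ R' s x = x ∨
        (F (π (wall T a R₁ R' s x).1, (wall T a R₁ R' s x).2) ≤ F (π x.1, x.2) ∧
          (s = 1 → F (π (wall T a R₁ R' s x).1, (wall T a R₁ R' s x).2) = F (π x.1, x.2) →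
            wall T a R₁ R' s x = x)) := by
    intro s hs x hx
    rcases le_or_gt ‖T x.2‖ R' with h | h
    · left
      apply wall_eq_self
      rw [wcut_eq_zero h1 hR h, mul_zero, stretch_zero hx]
    · right
      have h3 := wcut_nonneg h1 hR (T x.2)
      have h5 := wcut_le_one h1 hR (T x.2)
      have h6 : 0 ≤ s * wcut R₁ R' (T x.2) := mul_nonneg hs.1 h3
      have h7 : s * wcut R₁ R' (T x.2) ≤ 1 := by nlinarith [hs.2, hs.1]
      have h8 : F (π (wall T a R₁ R' s x).1, (wall T a R₁ R' s x).2) =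
          q0 (stretch a (s * wcut R₁ R' (T x.2)) (T x.2)) := by
        rw [← T_wall]
        refine hB.quad _ _ ?_
        rw [T_wall]
        exact norm_stretch_gt h1 hR hs hx h
      have h9 : F (π x.1, x.2) = q0 (T x.2) := hB.quad _ _ (hR.trans h)
      rw [h8, h9]
      refine ⟨q0_stretch_le h6 h7 hx, ?_⟩
      rintro rfl he
      apply wall_eq_self
      by_cases hc : (∃ j, (T x.2).1 j ≠ 0 ∧ |(T x.2).1 j| < a) ∨ ∃ j, (T x.2).2 j ≠ 0
      · exfalso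
        have h10 : 0 < 1 * wcut R₁ R' (T x.2) := by
          rw [one_mul]; exact wcut_pos h1 hR h
        exact absurd he (q0_stretch_lt h10 h7 hx hc).ne
      · exact stretch_eq_self h6 hx hc
  refine ⟨?_, ?_, ?_, ?_, ?_, ?_⟩
  · rintro s hs x ⟨-, hx1, hx2⟩
    refine ⟨mem_univ _, ?_, ?_⟩
    · rw [T_wall]
      exact norm_stretch_fst_le ha _
    · have h3 := wcut_nonneg h1 hR (T x.2)
      have h5 := wcut_le_one h1 hR (T x.2)
      have h6 : 0 ≤ s * wcut R₁ R' (T x.2) := mul_nonneg hs.1 h3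
      have h7 : s * wcut R₁ R' (T x.2) ≤ 1 := by nlinarith [hs.2, hs.1]
      rw [T_wall, norm_stretch_snd h7]
      refine le_trans ?_ hx2
      nlinarith [norm_nonneg (T x.2).2]
  · rintro s hs x ⟨-, hx1, hx2⟩
    rcases key s hs x hx1 with h | h
    · simp only [h]; exact le_refl _
    · exact h.1
  · rintro x ⟨-, hx1, hx2⟩
    apply wall_eq_self
    rw [zero_mul, stretch_zero hx1]
  · rintro s hs x -
    rfl
  · refine Continuous.continuousOn ?_
    have h2 : Continuous (fun r : ℝ × (N × Z) => (r.1 * wcut R₁ R' (T r.2.2), T r.2.2)) := by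
      have h3 : Continuous (fun r : ℝ × (N × Z) => T r.2.2) := T.continuous.comp (by fun_prop)
      exact (continuous_fst.mul (continuous_wcut.comp h3)).prodMk h3
    exact (continuous_fst.comp continuous_snd).prodMk
      (T.symm.continuous.comp ((continuous_stretch a).comp h2))
  · rintro x ⟨-, hx1, hx2⟩ he
    rcases key 1 ⟨zero_le_one, le_rfl⟩ x hx1 with h | h
    · exact h
    · exact h.2 rfl he

/-- **S6b.** Outside the central part of the box and above the bottom there is a descent. -/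
theorem exists_descent_wall (hB : IsBox (V := V) F T R₁ a' a b lo hi) (g : N → N) (π : N → M)
    {x₀ : N × Z} (hx : x₀ ∈ (univ : Set N) ×ˢ {z | ‖(T z).1‖ ≤ a ∧ ‖(T z).2‖ ≤ b})
    (hlo : lo ≤ F (π x₀.1, x₀.2)) (hR : R₁ < ‖T x₀.2‖) :
    ∃ D, Descent (Prod.map g id) (univ ×ˢ {z | ‖(T z).1‖ ≤ a ∧ ‖(T z).2‖ ≤ b})
        (fun x => F (π x.1, x.2)) D ∧
      ∃ U ∈ 𝓝[univ ×ˢ {z | ‖(T z).1‖ ≤ a ∧ ‖(T z).2‖ ≤ b}] x₀, ∀ y ∈ U,
        F (π (D 1 y).1, (D 1 y).2) < F (π y.1, y.2) := by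
  obtain ⟨R', hR1, hR2⟩ := exists_between hR
  refine ⟨wall T a R₁ R', descent_wall hB hR1 g π, {y | ‖(T y.2).1‖ < a ∧ R' < ‖T y.2‖}, ?_, ?_⟩
  · refine mem_nhdsWithin_of_mem_nhds (IsOpen.mem_nhds ?_ ⟨?_, hR2⟩)
    · have h3 : Continuous (fun r : N × Z => T r.2) := T.continuous.comp continuous_snd
      exact (isOpen_lt (continuous_norm.comp (continuous_fst.comp h3)) continuous_const).inter
        (isOpen_lt continuous_const (continuous_norm.comp h3))
    · by_contra hcon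
      push Not at hcon
      have h4 := hB.bottom (π x₀.1) x₀.2 (by linarith [hB.a'_lt]) hx.2.2
      linarith
  · rintro y ⟨hy1, hy2⟩
    have h1 := hB.R₁_pos
    have h0 : (1 : ℝ) ∈ Icc (0 : ℝ) 1 := ⟨zero_le_one, le_rfl⟩
    have h8 : F (π (wall T a R₁ R' 1 y).1, (wall T a R₁ R' 1 y).2) =
        q0 (stretch a (1 * wcut R₁ R' (T y.2)) (T y.2)) := by
      rw [← T_wall]
      refine hB.quad _ _ ?_
      rw [T_wall]
      exact norm_stretch_gt h1 hR1 h0 hy1.le hy2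
    have h9 : F (π y.1, y.2) = q0 (T y.2) := hB.quad _ _ (hR1.trans hy2)
    rw [h8, h9]
    refine q0_stretch_lt ?_ ?_ hy1.le ?_
    · rw [one_mul]; exact wcut_pos h1 hR1 hy2
    · rw [one_mul]; exact wcut_le_one h1 hR1 _
    · by_contra hcon
      push Not at hcon
      obtain ⟨c1, c2⟩ := hcon
      have e1 : (T y.2).1 = 0 := by
        funext j
        by_contra hj
        have := c1 j hj
        have h5 := norm_le_pi_norm (T y.2).1 j
        rw [Real.norm_eq_abs] at h5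
        linarith
      have e2 : (T y.2).2 = 0 := funext c2
      have e3 : ‖T y.2‖ = 0 := by
        rw [Prod.norm_def, e1, e2]; simp
      linarith

end Wall

end Vale.Agent.P265.H936
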